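import Vale.Agent.P300.Tame.Core
import Mathlib.Analysis.LocallyConvex.HahnBanach
import Mathlib.Analysis.LocallyConvex.SeparatingDual

/-!
P300: consequences of the local-to-global criterion.
-/

open scoped Manifold ContDiff Topology
open Set Filter Metric

namespace Vale.Agent.P300.Tame

open Vale.Agent.P300

theorem convex_punit : HolomorphicallyConvex PUnit PUnit := fun _ _ _ =>
  (Set.toFinite _).isCompact

theorem isCoveringMap_punit : IsCoveringMap (id : PUnit.{1} → PUnit.{1}) := by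
  intro x
  refine ⟨inferInstance, univ, trivial, isOpen_univ, isOpen_univ,
    { toFun := fun a => (⟨a.1, trivial⟩, ⟨x, rfl⟩)
      invFun := fun a => ⟨a.1.1, trivial⟩
      left_inv := fun a => rfl
      right_inv := fun a => Prod.ext rfl (Subtype.ext rfl)
      continuous_toFun := by fun_prop
      continuous_invFun := by fun_prop }, fun _ => rfl⟩

/-- The criterion for a holomorphic Galois covering of a compact complex manifold, relative to a
holomorphically convex Galois covering `W` of `Y`. -/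
theorem relative
    {E : Type*} [NormedAddCommGroup E] [NormedSpace ℂ E] [FiniteDimensional ℂ E]
    {E₂ : Type*} [NormedAddCommGroup E₂] [NormedSpace ℂ E₂]
    {X : Type*} [TopologicalSpace X] [ChartedSpace E X] [T2Space X] [CompactSpace X]
    {V : Type*} [TopologicalSpace V] [ChartedSpace E V] [IsManifold 𝓘(ℂ, E) ω V] [T2Space V]
    [ConnectedSpace V]
    {Y : Type*} [TopologicalSpace Y] [ChartedSpace E₂ Y] [T2Space Y]
    {W : Type*} [TopologicalSpace W] [ChartedSpace E₂ W] [T2Space W]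
    [ConnectedSpace W]
    {p : V → X} (hp : IsHolomorphicCovering E p) (hpG : IsGaloisCovering p)
    {q : W → Y} (hq : IsHolomorphicCovering E₂ q) (hqG : IsGaloisCovering q)
    {f : X → Y} {F : V → W} (hF : ContMDiff 𝓘(ℂ, E) 𝓘(ℂ, E₂) ω F)
    (hFf : ∀ v, q (F v) = f (p v)) (hW : HolomorphicallyConvex E₂ W)
    {B : Type*} [NormedAddCommGroup B] [NormedSpace ℂ B] {ι : Type*}
    (hsep : ∀ v : V, ∃ (n : ℕ) (N : Fin n → V → ℝ) (g : Fin n → ι → V → B) (ε : ℝ),
      (∀ k, IsTameFamily E p F (N k) (g k)) ∧ 0 < ε ∧ {u | p u = p v ∧ F u = F v ∧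
        ∀ k, |N k u - N k v| < ε ∧ ∀ i, ‖g k i u - g k i v‖ < ε}.Finite) :
    HolomorphicallyConvex E V := by
  have : ProperSpace E := FiniteDimensional.proper ℂ E
  have : LocallyCompactSpace V := ChartedSpace.locallyCompactSpace E V
  exact core hp.1 hp.2.1 hpG (fun γ hγ hγ' => deck_contMDiff hp.2.2 hγ hγ') hq.1 hqG hF hFf hW
    hsep

/-- The criterion for families of holomorphic maps of bounded oscillation. -/
theorem absolute
    {E : Type*} [NormedAddCommGroup E] [NormedSpace ℂ E] [FiniteDimensional ℂ E]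
    {X : Type*} [TopologicalSpace X] [ChartedSpace E X] [T2Space X] [CompactSpace X]
    {V : Type*} [TopologicalSpace V] [ChartedSpace E V] [IsManifold 𝓘(ℂ, E) ω V] [T2Space V]
    [ConnectedSpace V] {p : V → X} (hp : IsHolomorphicCovering E p) (hpG : IsGaloisCovering p)
    {B : Type*} [NormedAddCommGroup B] [NormedSpace ℂ B] {ι : Type*}
    (hsep : ∀ v : V, ∃ (g : ι → V → B) (ε : ℝ), (∀ i, ContMDiff 𝓘(ℂ, E) 𝓘(ℂ, B) ω (g i)) ∧
      (∀ C : Set V, IsCompact C → ∃ M : ℝ, ∀ γ : V ≃ₜ V, (∀ x, p (γ x) = p x) →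
        ∀ i, ∀ x ∈ C, ∀ y ∈ C, ‖g i (γ x) - g i (γ y)‖ ≤ M) ∧ 0 < ε ∧
      {u | p u = p v ∧ ∀ i, ‖g i u - g i v‖ < ε}.Finite) :
    HolomorphicallyConvex E V := by
  have hqcov : IsHolomorphicCovering PUnit.{1} (id : PUnit.{1} → PUnit.{1}) :=
    ⟨isCoveringMap_punit, Function.surjective_id,
      (Diffeomorph.refl 𝓘(ℂ, PUnit.{1}) PUnit.{1} ω).isLocalDiffeomorph⟩
  have hqG : IsGaloisCovering (id : PUnit.{1} → PUnit.{1}) := fun a b _ =>
    ⟨Homeomorph.refl _, fun _ => rfl, rfl⟩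
  refine relative (ι := ι) (B := B) hp hpG hqcov hqG (f := fun _ => PUnit.unit.{1})
    (F := fun _ => PUnit.unit.{1}) contMDiff_const (fun _ => rfl) convex_punit fun v => ?_
  obtain ⟨g, ε, hg, hb, hε, hfin⟩ := hsep v
  refine ⟨1, fun _ _ => 1, fun _ => g, ε, fun _ => ⟨continuous_const, fun _ => one_pos, hg,
    fun γ _ => ⟨fun _ => 1, contMDiff_const, fun _ => by simp⟩, fun C hC => ?_⟩, hε, ?_⟩
  · obtain ⟨M, hM⟩ := hb C hC
    refine ⟨max M 1, fun γ hγ => ⟨fun _ _ => le_max_right _ _, fun i => ?_⟩⟩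
    rcases C.eq_empty_or_nonempty with rfl | ⟨y, hy⟩
    · exact ⟨0, fun v hv => absurd hv (notMem_empty v)⟩
    · refine ⟨g i (γ y), fun x hx => ?_⟩
      rw [one_mul]
      exact (hM γ hγ.1 i x hx y hy).trans (le_max_left _ _)
  · refine hfin.subset fun u hu => ⟨hu.1, fun i => (hu.2.2 0).2 i⟩

theorem exists_left_inverse {E : Type*} [NormedAddCommGroup E] [NormedSpace ℂ E]
    [FiniteDimensional ℂ E] {B : Type*} [NormedAddCommGroup B] [NormedSpace ℂ B]
    (L : E →L[ℂ] B) (hL : Function.Injective L) : ∃ A : B →L[ℂ] E, ∀ x, A (L x) = x := by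
  obtain ⟨P, hP⟩ := Submodule.ClosedComplemented.of_finiteDimensional (𝕜 := ℂ)
    (LinearMap.range (L : E →ₗ[ℂ] B))
  let e : E ≃ₗ[ℂ] LinearMap.range (L : E →ₗ[ℂ] B) := LinearEquiv.ofInjective (L : E →ₗ[ℂ] B) hL
  refine ⟨(LinearMap.toContinuousLinearMap (e.symm : _ →ₗ[ℂ] E)).comp P, fun x => ?_⟩
  have h1 : P (L x) = e x := hP (e x)
  rw [ContinuousLinearMap.comp_apply, h1]
  exact e.symm_apply_apply x

/-- **Siegel's theorem in arbitrary codimension.** -/
theorem stein_of_embedding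
    {E : Type*} [NormedAddCommGroup E] [NormedSpace ℂ E] [FiniteDimensional ℂ E]
    {X : Type*} [TopologicalSpace X] [ChartedSpace E X] [T2Space X] [CompactSpace X]
    {V : Type*} [TopologicalSpace V] [ChartedSpace E V] [IsManifold 𝓘(ℂ, E) ω V] [T2Space V]
    [ConnectedSpace V] {p : V → X} (hp : IsHolomorphicCovering E p) (hpG : IsGaloisCovering p)
    {B : Type*} [NormedAddCommGroup B] [NormedSpace ℂ B] {g : V → B}
    (hg : ContMDiff 𝓘(ℂ, E) 𝓘(ℂ, B) ω g) (hgi : Topology.IsInducing g)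
    (hgd : ∀ v, Function.Injective (mfderiv 𝓘(ℂ, E) 𝓘(ℂ, B) g v))
    (hb : ∀ C : Set V, IsCompact C → ∃ M : ℝ, ∀ γ : V ≃ₜ V, (∀ x, p (γ x) = p x) →
      ∀ x ∈ C, ∀ y ∈ C, ‖g (γ x) - g (γ y)‖ ≤ M) :
    IsSteinManifold E V := by
  refine ⟨absolute (ι := Unit) (B := B) hp hpG fun v => ?_, fun a b hab => ?_, fun v => ?_⟩
  · obtain ⟨U, hUo, hUv, hinj⟩ := hp.1.isLocalHomeomorph.isLocallyInjective v
    have h1 : U ∈ 𝓝 v := hUo.mem_nhds hUv
    rw [hgi.nhds_eq_comap, Metric.nhds_basis_ball.comap _ |>.mem_iff] at h1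
    obtain ⟨ε, hε, hε2⟩ := h1
    refine ⟨fun _ => g, ε, fun _ => hg, fun C hC => ?_, hε, ?_⟩
    · obtain ⟨M, hM⟩ := hb C hC
      exact ⟨M, fun γ hγ _ => hM γ hγ⟩
    · refine (Set.finite_singleton v).subset fun u hu => ?_
      have h2 : u ∈ U := hε2 (by
        rw [mem_preimage, mem_ball, dist_eq_norm]
        exact hu.2 ())
      exact hinj h2 hUv hu.1
  · have h1 : g a ≠ g b := fun h => hab (hgi.injective h)
    obtain ⟨ℓ, hℓ⟩ := SeparatingDual.exists_separating_of_ne (R := ℂ) h1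
    exact ⟨fun x => ℓ (g x), ℓ.contMDiff.comp hg, hℓ⟩
  · have hd : MDifferentiableAt 𝓘(ℂ, E) 𝓘(ℂ, B) g v := (hg v).mdifferentiableAt (by simp)
    obtain ⟨A, hA⟩ := exists_left_inverse
      (show E →L[ℂ] B from mfderiv 𝓘(ℂ, E) 𝓘(ℂ, B) g v) (hgd v)
    refine ⟨fun x => A (g x), A.contMDiff.comp hg, ?_⟩
    have h1 : mfderiv 𝓘(ℂ, E) 𝓘(ℂ, E) (fun x => A (g x)) v =
        (show E →L[ℂ] E from A.comp (show E →L[ℂ] B from mfderiv 𝓘(ℂ, E) 𝓘(ℂ, B) g v)) := by
      have h2 : MDifferentiableAt 𝓘(ℂ, B) 𝓘(ℂ, E) A (g v) :=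
        A.differentiableAt.mdifferentiableAt
      have h3 := mfderiv_comp v h2 hd
      have h4 : mfderiv 𝓘(ℂ, B) 𝓘(ℂ, E) A (g v) = A := by
        rw [mfderiv_eq_fderiv]
        exact A.fderiv
      rw [h4] at h3
      exact h3
    rw [h1]
    constructor
    · intro x y hxy
      have h5 := hA x
      have h6 := hA y
      rw [← h5, ← h6]
      exact hxy
    · intro y
      exact ⟨y, hA y⟩

/-- The orbits of the deck group are locally finite for the Carathéodory distance. -/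
theorem convex_of_caratheodory
    {E : Type*} [NormedAddCommGroup E] [NormedSpace ℂ E] [FiniteDimensional ℂ E]
    {X : Type*} [TopologicalSpace X] [ChartedSpace E X] [T2Space X] [CompactSpace X]
    {V : Type*} [TopologicalSpace V] [ChartedSpace E V] [IsManifold 𝓘(ℂ, E) ω V] [T2Space V]
    [ConnectedSpace V] {p : V → X} (hp : IsHolomorphicCovering E p) (hpG : IsGaloisCovering p)
    (hsep : ∀ v : V, ∃ ε > (0 : ℝ), {u | p u = p v ∧ ∀ f : V → ℂ,
      ContMDiff 𝓘(ℂ, E) 𝓘(ℂ) ω f → (∀ x, ‖f x‖ < 1) → ‖f u - f v‖ < ε}.Finite) :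
    HolomorphicallyConvex E V := by
  refine absolute (ι := {f : V → ℂ // ContMDiff 𝓘(ℂ, E) 𝓘(ℂ) ω f ∧ ∀ x, ‖f x‖ < 1}) (B := ℂ)
    hp hpG fun v => ?_
  obtain ⟨ε, hε, hfin⟩ := hsep v
  refine ⟨fun f => f.1, ε, fun f => f.2.1, fun C _ => ⟨2, fun γ _ f x _ y _ => ?_⟩, hε, ?_⟩
  · have h1 := f.2.2 (γ x)
    have h2 := f.2.2 (γ y)
    refine (norm_sub_le _ _).trans ?_
    linarith
  · exact hfin.subset fun u hu => ⟨hu.1, fun f hf hf2 => hu.2 ⟨f, hf, hf2⟩⟩

end Vale.Agent.P300.Tame
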