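import Vale.Agent.P300.Defs
import Vale.Agent.P300.CoverDefs

open scoped Manifold ContDiff

namespace Vale.Agent.P300

/-- The deck transformations of the covering `p : V → X` that preserve the map `F : V → W`. -/
def deckOver {V X W : Type*} [TopologicalSpace V] (p : V → X) (F : V → W) : Set (V ≃ₜ V) :=
  {γ | (∀ v, p (γ v) = p v) ∧ ∀ v, F (γ v) = F v}

/-- `(N, (g_i))` is a tame family on `V`, relative to the group of deck transformations `γ` of
`p : V → X` that preserve `F : V → W`: `N` is a positive continuous weight with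
`N ∘ γ = |j_γ| N` for holomorphic functions `j_γ`, the `g_i` are holomorphic maps from `V` to a
complex normed space `B`, and for every compact `C ⊆ V` there is a bound `M` such that, for all
these `γ` and all `i`, `N ≤ M` and `N * ‖g_i - b‖ ≤ M` on `γ C`, for some `b ∈ B` depending on `γ`
and `i`. (For `N = 1`: the oscillation of `g_i` on the sets `γ C` is bounded.) -/
structure IsTameFamily (E : Type*) [NormedAddCommGroup E] [NormedSpace ℂ E]
    {V X W : Type*} [TopologicalSpace V] [ChartedSpace E V] (p : V → X) (F : V → W)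
    {B : Type*} [NormedAddCommGroup B] [NormedSpace ℂ B] {ι : Type*}
    (N : V → ℝ) (g : ι → V → B) : Prop where
  continuous : Continuous N
  pos : ∀ v, 0 < N v
  holomorphic : ∀ i, ContMDiff 𝓘(ℂ, E) 𝓘(ℂ, B) ω (g i)
  automorphic : ∀ γ ∈ deckOver p F, ∃ j : V → ℂ, ContMDiff 𝓘(ℂ, E) 𝓘(ℂ) ω j ∧
    ∀ v, N (γ v) = ‖j v‖ * N v
  bounded : ∀ C : Set V, IsCompact C → ∃ M : ℝ, ∀ γ ∈ deckOver p F,
    (∀ v ∈ C, N (γ v) ≤ M) ∧ ∀ i, ∃ b : B, ∀ v ∈ C, N (γ v) * ‖g i (γ v) - b‖ ≤ M

/-- A complex manifold is Stein if it is holomorphically convex and its holomorphic functions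
separate points and give local coordinates. -/
structure IsSteinManifold (E : Type*) [NormedAddCommGroup E] [NormedSpace ℂ E]
    (V : Type*) [TopologicalSpace V] [ChartedSpace E V] : Prop where
  convex : HolomorphicallyConvex E V
  separates : ∀ a b : V, a ≠ b → ∃ f : V → ℂ, ContMDiff 𝓘(ℂ, E) 𝓘(ℂ) ω f ∧ f a ≠ f b
  coordinates : ∀ v : V, ∃ f : V → E, ContMDiff 𝓘(ℂ, E) 𝓘(ℂ, E) ω f ∧
    Function.Bijective (mfderiv 𝓘(ℂ, E) 𝓘(ℂ, E) f v)

end Vale.Agent.P300
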