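import Vale.Agent.P300.Tame.Hull
import Vale.Agent.P300.Tame.Defs

/-!
P300: the local-to-global criterion for holomorphic convexity.
-/

open scoped Manifold ContDiff Topology
open Set Filter Metric

namespace Vale.Agent.P300.Tame

open Vale.Agent.P300

section div

variable {α : Type*} {l : Filter α} {B : Type*} [NormedAddCommGroup B] [NormedSpace ℂ B]

theorem norm_tendsto {u₁ u₂ : α → ℂ} {c : ℝ}
    (hu : Tendsto (fun a => u₁ a - u₂ a) l (𝓝 0)) (hu1 : Tendsto (fun a => ‖u₁ a‖) l (𝓝 c)) :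
    Tendsto (fun a => ‖u₂ a‖) l (𝓝 c) := by
  have h1 : Tendsto (fun a => ‖u₂ a‖ - ‖u₁ a‖) l (𝓝 0) := by
    refine squeeze_zero_norm (fun a => ?_) (tendsto_norm_zero.comp hu)
    rw [Real.norm_eq_abs]
    refine (abs_norm_sub_norm_le _ _).trans ?_
    simp only [Function.comp_apply]
    rw [norm_sub_rev]
  have h2 := h1.add hu1
  simpa using h2

theorem ne_zero_of_norm_tendsto {u : α → ℂ} {c : ℝ} (hc : 0 < c)
    (hu : Tendsto (fun a => ‖u a‖) l (𝓝 c)) : ∀ᶠ a in l, u a ≠ 0 := by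
  filter_upwards [hu.eventually (lt_mem_nhds hc)] with a ha
  exact norm_pos_iff.1 ha

theorem tendsto_div_sub {ι : Type*} {u₁ u₂ : α → ℂ} {G₁ G₂ : α → ι → B} {c M : ℝ} (hc : 0 < c)
    (hu : Tendsto (fun a => u₁ a - u₂ a) l (𝓝 0)) (hu1 : Tendsto (fun a => ‖u₁ a‖) l (𝓝 c))
    (hG : ∀ η > 0, ∀ᶠ a in l, ∀ i, ‖G₁ a i - G₂ a i‖ ≤ η)
    (hG1 : ∀ᶠ a in l, ∀ i, ‖G₁ a i‖ ≤ M) :
    ∀ η > 0, ∀ᶠ a in l, ∀ i, ‖(u₁ a)⁻¹ • G₁ a i - (u₂ a)⁻¹ • G₂ a i‖ ≤ η := by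
  intro η hη
  have hu2 := norm_tendsto hu hu1
  have hi1 : Tendsto (fun a => ‖(u₁ a)⁻¹‖) l (𝓝 c⁻¹) := by
    simp only [norm_inv]
    exact hu1.inv₀ hc.ne'
  have hi2 : Tendsto (fun a => ‖(u₂ a)⁻¹‖) l (𝓝 c⁻¹) := by
    simp only [norm_inv]
    exact hu2.inv₀ hc.ne'
  have hne1 := ne_zero_of_norm_tendsto hc hu1
  have hne2 := ne_zero_of_norm_tendsto hc hu2
  have hb : Tendsto (fun a => ‖(u₁ a)⁻¹‖ * ‖u₁ a - u₂ a‖ * ‖(u₂ a)⁻¹‖ * |M|) l (𝓝 0) := by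
    have h1 := ((hi1.mul (tendsto_norm_zero.comp hu)).mul hi2).mul
      (tendsto_const_nhds (x := |M|))
    simpa using h1
  have hb2 : ∀ᶠ a in l, ‖(u₂ a)⁻¹‖ ≤ 2 * c⁻¹ := by
    refine (hi2.eventually (gt_mem_nhds ?_)).mono fun a ha => ha.le
    have := inv_pos.2 hc
    linarith
  filter_upwards [hne1, hne2, hG1, hb.eventually (gt_mem_nhds (half_pos hη)), hb2,
    hG (η * c / 4) (by positivity)] with a h1 h2 h3 h4 h5 h6 i
  have e1 : (u₁ a)⁻¹ • G₁ a i - (u₂ a)⁻¹ • G₂ a i =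
      -((u₁ a)⁻¹ * (u₁ a - u₂ a) * (u₂ a)⁻¹) • G₁ a i + (u₂ a)⁻¹ • (G₁ a i - G₂ a i) := by
    have e2 : -((u₁ a)⁻¹ * (u₁ a - u₂ a) * (u₂ a)⁻¹) = (u₁ a)⁻¹ - (u₂ a)⁻¹ := by
      field_simp
      ring
    rw [e2, sub_smul, smul_sub]
    abel
  rw [e1]
  refine (norm_add_le _ _).trans ?_
  rw [norm_smul, norm_smul, norm_neg, norm_mul, norm_mul]
  have h7 : ‖G₁ a i‖ ≤ |M| := (h3 i).trans (le_abs_self M)
  have h8 : ‖(u₁ a)⁻¹‖ * ‖u₁ a - u₂ a‖ * ‖(u₂ a)⁻¹‖ * ‖G₁ a i‖ ≤ η / 2 := by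
    refine le_trans ?_ h4.le
    gcongr
  have h9 : ‖(u₂ a)⁻¹‖ * ‖G₁ a i - G₂ a i‖ ≤ η / 2 := by
    calc ‖(u₂ a)⁻¹‖ * ‖G₁ a i - G₂ a i‖ ≤ 2 * c⁻¹ * (η * c / 4) := by
          gcongr
          exact h6 i
      _ = η / 2 := by field_simp; ring
  linarith

end div

variable {E : Type*} [NormedAddCommGroup E] [NormedSpace ℂ E]
  {E₂ : Type*} [NormedAddCommGroup E₂] [NormedSpace ℂ E₂]
  {V : Type*} [TopologicalSpace V] [ChartedSpace E V]
  {W : Type*} [TopologicalSpace W] [ChartedSpace E₂ W]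
  {B : Type*} [NormedAddCommGroup B] [NormedSpace ℂ B]

theorem exists_min {N : V → ℝ} (hN : Continuous N) (hpos : ∀ v, 0 < N v) {C : Set V}
    (hC : IsCompact C) : ∃ m > 0, ∀ v ∈ C, m ≤ N v := by
  rcases C.eq_empty_or_nonempty with rfl | hne
  · exact ⟨1, one_pos, fun v hv => absurd hv (notMem_empty v)⟩
  · obtain ⟨x, hx, hmin⟩ := hC.exists_isMinOn hne hN.continuousOn
    exact ⟨N x, hpos x, fun v hv => hmin hv⟩

/-- The values of the cocycle and of the twisted maps are bounded on the compact set. -/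
theorem bounded_aux {N : V → ℝ} {C : Set V} {M m : ℝ} (hm : 0 < m) (hmC : ∀ v ∈ C, m ≤ N v)
    {g : V → B} {b : B} {γ : V → V} {j : V → ℂ} (hj : ∀ v, N (γ v) = ‖j v‖ * N v) {v : V}
    (hv : v ∈ C) (hb : N (γ v) * ‖g (γ v) - b‖ ≤ M) : ‖j v • (g (γ v) - b)‖ ≤ M / m := by
  have h1 := hmC v hv
  rw [hj] at hb
  rw [norm_smul, le_div_iff₀ hm]
  refine le_trans ?_ hb
  calc ‖j v‖ * ‖g (γ v) - b‖ * m ≤ ‖j v‖ * ‖g (γ v) - b‖ * N v := by gcongr
    _ = ‖j v‖ * N v * ‖g (γ v) - b‖ := by ring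

theorem bounded_aux' {N : V → ℝ} {C : Set V} {M m : ℝ} (hm : 0 < m) (hmC : ∀ v ∈ C, m ≤ N v)
    {γ : V → V} {j : V → ℂ} (hj : ∀ v, N (γ v) = ‖j v‖ * N v) {v : V} (hv : v ∈ C)
    (hb : N (γ v) ≤ M) : ‖j v‖ ≤ M / m := by
  have h1 := hmC v hv
  rw [hj] at hb
  rw [le_div_iff₀ hm]
  exact (mul_le_mul_of_nonneg_left h1 (norm_nonneg _)).trans hb

theorem deck_symm {X : Type*} {p : V → X} {F : V → W} {σ : V ≃ₜ V} (hσ : σ ∈ deckOver p F) :
    σ.symm ∈ deckOver p F := by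
  refine ⟨fun v => ?_, fun v => ?_⟩
  · have := hσ.1 (σ.symm v)
    rw [Homeomorph.apply_symm_apply] at this
    exact this.symm
  · have := hσ.2 (σ.symm v)
    rw [Homeomorph.apply_symm_apply] at this
    exact this.symm

theorem deck_trans {X : Type*} {p : V → X} {F : V → W} {σ τ : V ≃ₜ V} (hσ : σ ∈ deckOver p F)
    (hτ : τ ∈ deckOver p F) : σ.trans τ ∈ deckOver p F := by
  refine ⟨fun v => ?_, fun v => ?_⟩
  · rw [Homeomorph.trans_apply, hτ.1, hσ.1]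
  · rw [Homeomorph.trans_apply, hτ.2, hσ.2]

/-- The members of a tame family nearly agree at a limit point `w₀` and its translates by the
quotients of the deck transformations that bring points of a hull near `w₀`. -/
theorem key [IsManifold 𝓘(ℂ, E) ω V] [LocallyCompactSpace V] {X : Type*} {p : V → X} {F : V → W}
    {α : Type*} (𝒰 : Ultrafilter α) {om : α → V} {w₀ : V} (hw₀ : Tendsto om 𝒰 (𝓝 w₀))
    {κ : α → V ≃ₜ V} (hκmem : ∀ᶠ v in (𝒰 : Filter α), κ v ∈ deckOver p F)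
    (hhol : ∀ σ ∈ deckOver p F, ContMDiff 𝓘(ℂ, E) 𝓘(ℂ, E) ω σ)
    {K' : Set V} (hK'c : IsCompact K') (hKne : K'.Nonempty)
    (hξhull : ∀ᶠ v in (𝒰 : Filter α), κ v (om v) ∈ holomorphicHull E K')
    {ι : Type*} {N : V → ℝ} {g : ι → V → B} (htame : IsTameFamily E p F N g) :
    Tendsto (fun a : α × α => N ((κ a.2).trans (κ a.1).symm w₀))
      ((𝒰 : Filter α) ×ˢ (𝒰 : Filter α)) (𝓝 (N w₀)) ∧
    ∀ η > 0, ∀ᶠ a : α × α in (𝒰 : Filter α) ×ˢ (𝒰 : Filter α), ∀ i,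
      ‖g i ((κ a.2).trans (κ a.1).symm w₀) - g i w₀‖ ≤ η := by
  classical
  set ξ : α → V := fun v => κ v (om v) with hξ
  have hξκ : ∀ v, ξ v = κ v (om v) := fun v => rfl
  obtain ⟨C, hC, hKC⟩ := exists_compact_superset hK'c
  have hKC' : ∀ k ∈ K', C ∈ 𝓝 k := fun k hk => mem_interior_iff_mem_nhds.1 (hKC hk)
  have hK'C : K' ⊆ C := hKC.trans interior_subset
  obtain ⟨C₀, hC₀, hC₀w⟩ := exists_compact_mem_nhds w₀
  obtain ⟨M, hM⟩ := htame.bounded C hC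
  obtain ⟨M₀, hM₀⟩ := htame.bounded C₀ hC₀
  obtain ⟨m, hm, hmC⟩ := exists_min htame.continuous htame.pos hC
  obtain ⟨m₀, hm₀, hmC₀⟩ := exists_min htame.continuous htame.pos hC₀
  have hchJ : ∀ σ : V ≃ₜ V, ∃ j : V → ℂ, σ ∈ deckOver p F → ContMDiff 𝓘(ℂ, E) 𝓘(ℂ) ω j ∧
      ∀ v, N (σ v) = ‖j v‖ * N v := by
    intro σ
    by_cases hσ : σ ∈ deckOver p F
    · obtain ⟨j, hj⟩ := htame.automorphic σ hσ
      exact ⟨j, fun _ => hj⟩
    · exact ⟨0, fun h => absurd h hσ⟩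
  choose J hJ using hchJ
  have hchb : ∀ (σ : V ≃ₜ V) (i : ι), ∃ b : B, σ ∈ deckOver p F → ∀ v ∈ C,
      N (σ v) * ‖g i (σ v) - b‖ ≤ M := by
    intro σ i
    by_cases hσ : σ ∈ deckOver p F
    · obtain ⟨b, hb⟩ := (hM σ hσ).2 i
      exact ⟨b, fun _ => hb⟩
    · exact ⟨0, fun h => absurd h hσ⟩
  choose b hb using hchb
  have hchb₀ : ∀ (σ : V ≃ₜ V) (i : ι), ∃ b : B, σ ∈ deckOver p F → ∀ v ∈ C₀,
      N (σ v) * ‖g i (σ v) - b‖ ≤ M₀ := by
    intro σ i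
    by_cases hσ : σ ∈ deckOver p F
    · obtain ⟨b, hb⟩ := (hM₀ σ hσ).2 i
      exact ⟨b, fun _ => hb⟩
    · exact ⟨0, fun h => absurd h hσ⟩
  choose b₀ hb₀ using hchb₀
  -- holomorphic families
  have hJh : ∀ σ ∈ deckOver p F, ContMDiff 𝓘(ℂ, E) 𝓘(ℂ) ω (J σ) := fun σ hσ => (hJ σ hσ).1
  have hGh : ∀ σ ∈ deckOver p F, ∀ (i : ι) (b : B),
      ContMDiff 𝓘(ℂ, E) 𝓘(ℂ, B) ω (fun v => J σ v • (g i (σ v) - b)) := fun σ hσ i b =>
    contMDiff_smul (hJh σ hσ) (contMDiff_sub ((htame.holomorphic i).comp (hhol σ hσ))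
      contMDiff_const)
  have hbdJ : ∀ σ ∈ deckOver p F, ∀ v ∈ C, ‖J σ v‖ ≤ M / m := fun σ hσ v hv =>
    bounded_aux' hm hmC (hJ σ hσ).2 hv ((hM σ hσ).1 v hv)
  have hbdG : ∀ σ ∈ deckOver p F, ∀ i, ∀ v ∈ C, ‖J σ v • (g i (σ v) - b σ i)‖ ≤ M / m :=
    fun σ hσ i v hv => bounded_aux hm hmC (hJ σ hσ).2 hv (hb σ i hσ v hv)
  have hbdJ₀ : ∀ σ ∈ deckOver p F, ∀ v ∈ C₀, ‖J σ v‖ ≤ M₀ / m₀ := fun σ hσ v hv =>
    bounded_aux' hm₀ hmC₀ (hJ σ hσ).2 hv ((hM₀ σ hσ).1 v hv)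
  have hbdG₀ : ∀ σ ∈ deckOver p F, ∀ i, ∀ v ∈ C₀,
      ‖J σ v • (g i (σ v) - b₀ σ i)‖ ≤ M₀ / m₀ :=
    fun σ hσ i v hv => bounded_aux hm₀ hmC₀ (hJ σ hσ).2 hv (hb₀ σ i hσ v hv)
  have hMm : 0 ≤ M / m := by
    obtain ⟨k, hk⟩ := hKne
    obtain ⟨v, hv⟩ := hκmem.exists
    exact (norm_nonneg _).trans (hbdJ _ hv _ (hK'C hk))
  have hhullJ : ∀ σ ∈ deckOver p F, ∀ v ∈ holomorphicHull E K', ‖J σ v‖ ≤ M / m :=
    fun σ hσ v hv => hull_norm_le hv (hJh σ hσ) hMm fun x hx => hbdJ σ hσ x (hK'C hx)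
  have hhullG : ∀ σ ∈ deckOver p F, ∀ i, ∀ v ∈ holomorphicHull E K',
      ‖J σ v • (g i (σ v) - b σ i)‖ ≤ M / m :=
    fun σ hσ i v hv => hull_norm_le hv (hGh σ hσ i _) hMm fun x hx => hbdG σ hσ i x (hK'C hx)
  have homC₀ : ∀ᶠ v in (𝒰 : Filter α), om v ∈ C₀ := hw₀.eventually_mem hC₀w
  -- the weight at the points `ξ v`
  have hκsymm : ∀ v, (κ v).symm (ξ v) = om v := by
    intro v
    rw [hξκ, Homeomorph.symm_apply_apply]
  have hNξ : ∀ᶠ v in (𝒰 : Filter α), m₀ / (M / m + 1) ≤ N (ξ v) ∧ N (ξ v) ≤ M₀ := by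
    filter_upwards [homC₀, hκmem, hξhull] with v h1 h2 h3
    constructor
    · have h4 := (hJ _ (deck_symm h2)).2 (ξ v)
      rw [hκsymm] at h4
      have h5 := hhullJ _ (deck_symm h2) _ h3
      rw [div_le_iff₀ (by positivity)]
      calc m₀ ≤ N (om v) := hmC₀ _ h1
        _ = ‖J (κ v).symm (ξ v)‖ * N (ξ v) := h4
        _ ≤ (M / m + 1) * N (ξ v) := by
            have := htame.pos (ξ v)
            gcongr
            exact h5.trans (by linarith)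
        _ = N (ξ v) * (M / m + 1) := mul_comm _ _
    · rw [hξκ]
      exact (hM₀ _ h2).1 _ h1
  obtain ⟨Ns, hNs, hNs2⟩ := ultra_tendsto 𝒰 (g := fun v => N (ξ v)) isCompact_Icc hNξ
  have hNs0 : 0 < Ns := lt_of_lt_of_le (by positivity) hNs.1
  have hNw : Tendsto (fun v => N (om v)) 𝒰 (𝓝 (N w₀)) :=
    (htame.continuous.tendsto w₀).comp hw₀
  -- the product filter
  set 𝒬 : Filter (α × α) := (𝒰 : Filter α) ×ˢ (𝒰 : Filter α) with h𝒬
  have ht1 : Tendsto (Prod.fst : α × α → α) 𝒬 𝒰 := tendsto_fst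
  have ht2 : Tendsto (Prod.snd : α × α → α) 𝒬 𝒰 := tendsto_snd
  have hmem1 : ∀ᶠ a in 𝒬, κ a.1 ∈ deckOver p F := ht1.eventually hκmem
  have hmem2 : ∀ᶠ a in 𝒬, κ a.2 ∈ deckOver p F := ht2.eventually hκmem
  have hh1 : ∀ᶠ a in 𝒬, ξ a.1 ∈ holomorphicHull E K' := ht1.eventually hξhull
  set s : α × α → V ≃ₜ V := fun a => (κ a.1).symm with hs
  have hsmem : ∀ᶠ a in 𝒬, s a ∈ deckOver p F := hmem1.mono fun a ha => deck_symm ha
  have hunifJ : Tendsto (fun a => J (s a) (ξ a.1) - J (s a) (ξ a.2)) 𝒬 (𝓝 0) := by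
    rw [Metric.tendsto_nhds]
    intro η hη
    obtain ⟨A, hA, hA2⟩ := uniform_vector (E := E) (B := ℂ) 𝒰 hK'c hKC' hξhull (M / m)
      (half_pos hη)
    filter_upwards [ht1.eventually hA, ht2.eventually hA, hsmem] with a h1 h2 h3
    rw [dist_zero_right]
    refine (hA2 a.1 h1 a.2 h2 (J (s a)) (hJh _ h3) (hbdJ _ h3)).trans_lt ?_
    linarith
  have hunifG : ∀ η > 0, ∀ᶠ a in 𝒬, ∀ i, ‖J (s a) (ξ a.1) • (g i (s a (ξ a.1)) - b (s a) i) -
      J (s a) (ξ a.2) • (g i (s a (ξ a.2)) - b (s a) i)‖ ≤ η := by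
    intro η hη
    obtain ⟨A, hA, hA2⟩ := uniform_vector (E := E) (B := B) 𝒰 hK'c hKC' hξhull (M / m) hη
    filter_upwards [ht1.eventually hA, ht2.eventually hA, hsmem] with a h1 h2 h3 i
    exact hA2 a.1 h1 a.2 h2 _ (hGh _ h3 i (b (s a) i)) (hbdG _ h3 i)
  have hJ1 : Tendsto (fun a => ‖J (s a) (ξ a.1)‖) 𝒬 (𝓝 (N w₀ / Ns)) := by
    have h1 : Tendsto (fun a : α × α => N (om a.1) / N (ξ a.1)) 𝒬 (𝓝 (N w₀ / Ns)) :=
      (hNw.comp ht1).div (hNs2.comp ht1) hNs0.ne'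
    refine h1.congr' ?_
    filter_upwards [hsmem] with a ha
    have h2 := (hJ _ ha).2 (ξ a.1)
    rw [hs] at h2
    simp only [hκsymm] at h2
    rw [div_eq_iff (htame.pos _).ne', h2]
  have hJ2 := norm_tendsto hunifJ hJ1
  -- first comparison
  set h : α × α → V ≃ₜ V := fun a => (κ a.2).trans (s a) with hh
  have hhmem : ∀ᶠ a in 𝒬, h a ∈ deckOver p F := by
    filter_upwards [hmem2, hsmem] with a h1 h2
    exact deck_trans h1 h2
  have hsξ : ∀ a : α × α, s a (ξ a.2) = h a (om a.2) := by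
    intro a
    rw [hh, Homeomorph.trans_apply, hξκ]
  have hsξ1 : ∀ a : α × α, s a (ξ a.1) = om a.1 := fun a => hκsymm a.1
  have hNh : Tendsto (fun a => N (h a (om a.2))) 𝒬 (𝓝 (N w₀)) := by
    have h1 : Tendsto (fun a : α × α => ‖J (s a) (ξ a.2)‖ * N (ξ a.2)) 𝒬
        (𝓝 (N w₀ / Ns * Ns)) := hJ2.mul (hNs2.comp ht2)
    rw [div_mul_cancel₀ _ hNs0.ne'] at h1
    refine h1.congr' ?_
    filter_upwards [hsmem] with a ha
    rw [← hsξ, (hJ _ ha).2]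
  have hGb : ∀ᶠ a in 𝒬, ∀ i, ‖J (s a) (ξ a.1) • (g i (s a (ξ a.1)) - b (s a) i)‖ ≤ M / m := by
    filter_upwards [hsmem, hh1] with a h1 h2 i
    exact hhullG _ h1 i _ h2
  have hpos1 : 0 < N w₀ / Ns := div_pos (htame.pos _) hNs0
  have hg1 : ∀ η > 0, ∀ᶠ a : α × α in 𝒬, ∀ i, ‖g i (om a.1) - g i (h a (om a.2))‖ ≤ η := by
    intro η hη
    filter_upwards [tendsto_div_sub hpos1 hunifJ hJ1 hunifG hGb η hη,
      ne_zero_of_norm_tendsto hpos1 hJ1, ne_zero_of_norm_tendsto hpos1 hJ2] with a h0 h1 h2 i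
    have h3 := h0 i
    rw [smul_smul, smul_smul, inv_mul_cancel₀ h1, inv_mul_cancel₀ h2, one_smul, one_smul, hsξ,
      hsξ1, sub_sub_sub_cancel_right] at h3
    exact h3
  -- second comparison
  have hw2 : Tendsto (fun a : α × α => om a.2) 𝒬 (𝓝 w₀) := hw₀.comp ht2
  have hJe : Tendsto (fun a => J (h a) (om a.2) - J (h a) w₀) 𝒬 (𝓝 0) := by
    rw [Metric.tendsto_nhds]
    intro η hη
    obtain ⟨U, hU, hU2⟩ := equicontinuous (E := E) (B := ℂ) (M := M₀ / m₀) hC₀w (half_pos hη)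
    filter_upwards [hhmem, hw2.eventually_mem hU] with a h1 h2
    rw [dist_zero_right]
    refine (hU2 _ (hJh _ h1) (hbdJ₀ _ h1) _ h2).trans_lt ?_
    linarith
  have hGe : ∀ η > 0, ∀ᶠ a in 𝒬, ∀ i,
      ‖J (h a) (om a.2) • (g i (h a (om a.2)) - b₀ (h a) i) -
      J (h a) w₀ • (g i (h a w₀) - b₀ (h a) i)‖ ≤ η := by
    intro η hη
    obtain ⟨U, hU, hU2⟩ := equicontinuous (E := E) (B := B) (M := M₀ / m₀) hC₀w hη
    filter_upwards [hhmem, hw2.eventually_mem hU] with a h1 h2 i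
    exact hU2 _ (hGh _ h1 i (b₀ (h a) i)) (hbdG₀ _ h1 i) _ h2
  have hJh1 : Tendsto (fun a => ‖J (h a) (om a.2)‖) 𝒬 (𝓝 1) := by
    have h1 : Tendsto (fun a : α × α => N (h a (om a.2)) / N (om a.2)) 𝒬
        (𝓝 (N w₀ / N w₀)) := hNh.div (hNw.comp ht2) (htame.pos _).ne'
    rw [div_self (htame.pos _).ne'] at h1
    refine h1.congr' ?_
    filter_upwards [hhmem] with a ha
    rw [div_eq_iff (htame.pos _).ne', (hJ _ ha).2]
  have hJh2 := norm_tendsto hJe hJh1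
  have hNfin : Tendsto (fun a => N (h a w₀)) 𝒬 (𝓝 (N w₀)) := by
    have h1 : Tendsto (fun a => ‖J (h a) w₀‖ * N w₀) 𝒬 (𝓝 (1 * N w₀)) :=
      hJh2.mul tendsto_const_nhds
    rw [one_mul] at h1
    refine h1.congr' ?_
    filter_upwards [hhmem] with a ha
    rw [(hJ _ ha).2]
  refine ⟨hNfin, fun η hη => ?_⟩
  have hGb₀ : ∀ᶠ a in 𝒬, ∀ i,
      ‖J (h a) (om a.2) • (g i (h a (om a.2)) - b₀ (h a) i)‖ ≤ M₀ / m₀ := by
    filter_upwards [hhmem, ht2.eventually homC₀] with a h1 h2 i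
    exact hbdG₀ _ h1 i _ h2
  have hg2 : ∀ η > 0, ∀ᶠ a : α × α in 𝒬, ∀ i, ‖g i (h a (om a.2)) - g i (h a w₀)‖ ≤ η := by
    intro η hη
    filter_upwards [tendsto_div_sub one_pos hJe hJh1 hGe hGb₀ η hη,
      ne_zero_of_norm_tendsto one_pos hJh1, ne_zero_of_norm_tendsto one_pos hJh2]
      with a h0 h1 h2 i
    have h3 := h0 i
    rw [smul_smul, smul_smul, inv_mul_cancel₀ h1, inv_mul_cancel₀ h2, one_smul, one_smul,
      sub_sub_sub_cancel_right] at h3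
    exact h3
  -- the maps `g i` at `om a.1` and `w₀`
  have hg3 : ∀ η > 0, ∀ᶠ a : α × α in 𝒬, ∀ i, ‖g i (om a.1) - g i w₀‖ ≤ η := by
    intro η hη
    have hid : Homeomorph.refl V ∈ deckOver p F := ⟨fun _ => rfl, fun _ => rfl⟩
    obtain ⟨U, hU, hU2⟩ := equicontinuous (E := E) (B := B) (M := M₀ / m₀) hC₀w hη
    filter_upwards [(hw₀.comp ht1).eventually_mem hU] with a ha i
    have h1 := hU2 (fun v => g i v - b₀ (Homeomorph.refl V) i)
      (contMDiff_sub (htame.holomorphic i) contMDiff_const) (fun x hx => by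
        have h2 := hb₀ (Homeomorph.refl V) i hid x hx
        simp only [Homeomorph.refl_apply, id] at h2
        rw [le_div_iff₀ hm₀, mul_comm]
        refine le_trans ?_ h2
        have h3 := hmC₀ x hx
        gcongr) _ ha
    simpa only [Function.comp_apply, sub_sub_sub_cancel_right] using h1
  filter_upwards [hg1 (η / 3) (by positivity), hg2 (η / 3) (by positivity),
    hg3 (η / 3) (by positivity)] with a h1 h2 h3 i
  have e1 : g i ((κ a.2).trans (κ a.1).symm w₀) - g i w₀ =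
      (g i (om a.1) - g i w₀) - (g i (om a.1) - g i (h a (om a.2))) -
        (g i (h a (om a.2)) - g i (h a w₀)) := by
    abel
  rw [e1]
  calc _ ≤ ‖(g i (om a.1) - g i w₀) - (g i (om a.1) - g i (h a (om a.2)))‖ +
        ‖g i (h a (om a.2)) - g i (h a w₀)‖ := norm_sub_le _ _
    _ ≤ (‖g i (om a.1) - g i w₀‖ + ‖g i (om a.1) - g i (h a (om a.2))‖) +
        ‖g i (h a (om a.2)) - g i (h a w₀)‖ := by gcongr; exact norm_sub_le _ _
    _ ≤ η := by linarith [h1 i, h2 i, h3 i]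

theorem core [IsManifold 𝓘(ℂ, E) ω V] [LocallyCompactSpace V]
    [T2Space V] [PreconnectedSpace V] [T2Space W] [PreconnectedSpace W] [Nonempty V]
    {X Y : Type*} [TopologicalSpace X] [CompactSpace X] [T2Space X]
    [TopologicalSpace Y] [T2Space Y]
    {p : V → X} (hp : IsCoveringMap p) (hps : Function.Surjective p)
    (hpG : ∀ a b, p a = p b → ∃ γ : V ≃ₜ V, (∀ v, p (γ v) = p v) ∧ γ a = b)
    (hphol : ∀ γ : V → V, Continuous γ → (∀ v, p (γ v) = p v) →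
      ContMDiff 𝓘(ℂ, E) 𝓘(ℂ, E) ω γ)
    {q : W → Y} (hq : IsCoveringMap q)
    (hqG : ∀ a b, q a = q b → ∃ γ : W ≃ₜ W, (∀ v, q (γ v) = q v) ∧ γ a = b)
    {f : X → Y} {F : V → W} (hFs : ContMDiff 𝓘(ℂ, E) 𝓘(ℂ, E₂) ω F)
    (hFf : ∀ v, q (F v) = f (p v))
    (hW : HolomorphicallyConvex E₂ W)
    {ι : Type*} (hsep : ∀ v : V, ∃ (n : ℕ) (N : Fin n → V → ℝ) (g : Fin n → ι → V → B) (ε : ℝ),
      (∀ k, IsTameFamily E p F (N k) (g k)) ∧ 0 < ε ∧ {u | p u = p v ∧ F u = F v ∧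
        ∀ k, |N k u - N k v| < ε ∧ ∀ i, ‖g k i u - g k i v‖ < ε}.Finite) :
    HolomorphicallyConvex E V := by
  classical
  have hFc : Continuous F := hFs.continuous
  intro K hK hKne
  obtain ⟨F₀, hF₀, hF₀s⟩ := exists_compact_fundamental hp hps
  choose om hom1 hom2 using hF₀s
  choose γ hγ1 hγ2 using fun v => hpG (om v) v (hom2 v)
  -- induced deck transformations on W
  have hbar : ∀ g : V ≃ₜ V, (∀ v, p (g v) = p v) → ∃ d : W ≃ₜ W, (∀ y, q (d y) = q y) ∧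
      ∀ v, F (g v) = d (F v) := by
    intro g hg
    obtain ⟨v₀⟩ := ‹Nonempty V›
    obtain ⟨d, hd1, hd2⟩ := hqG (F v₀) (F (g v₀)) (by rw [hFf, hFf, hg])
    refine ⟨d, hd1, fun v => ?_⟩
    have := hq.eq_of_comp_eq (g₁ := fun v => F (g v)) (g₂ := fun v => d (F v))
      (hFc.comp g.continuous) (d.continuous.comp hFc) (by
        funext v
        simp only [Function.comp_apply, hd1, hFf, hg]) v₀ hd2.symm
    exact congrFun this v
  have hKW : IsCompact (holomorphicHull E₂ (F '' K)) :=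
    hW _ (hK.image hFc) (hKne.image F)
  rw [isCompact_iff_ultrafilter_le_nhds]
  intro 𝒰 h𝒰
  have hhull : ∀ᶠ v in (𝒰 : Filter V), v ∈ holomorphicHull E K := le_principal_iff.1 h𝒰
  -- it suffices to find a compact set in the ultrafilter
  suffices hsuff : ∃ C : Set V, IsCompact C ∧ ∀ᶠ v in (𝒰 : Filter V), v ∈ C by
    obtain ⟨C, hC, hCU⟩ := hsuff
    obtain ⟨x, -, hx⟩ := hC.ultrafilter_le_nhds 𝒰 (le_principal_iff.2 hCU)
    refine ⟨x, ?_, hx⟩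
    exact (isClosed_hull K).mem_of_tendsto (f := id) (b := (𝒰 : Filter V)) hx hhull
  -- limits
  obtain ⟨w₀, -, hw₀⟩ := ultra_tendsto 𝒰 (g := om) hF₀ (Eventually.of_forall hom1)
  obtain ⟨ys, -, hys⟩ := ultra_tendsto 𝒰 (g := F) hKW
    (hhull.mono fun v hv => hull_map hFs hv)
  have hFom : Tendsto (fun v => F (om v)) 𝒰 (𝓝 (F w₀)) := (hFc.tendsto w₀).comp hw₀
  have hqq : q (F w₀) = q ys := by
    have h1 : Tendsto (fun v => q (F (om v))) 𝒰 (𝓝 (q (F w₀))) :=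
      (hq.continuous.tendsto _).comp hFom
    have h2 : Tendsto (fun v => q (F v)) 𝒰 (𝓝 (q ys)) := (hq.continuous.tendsto _).comp hys
    have h3 : (fun v => q (F (om v))) = fun v => q (F v) := by
      funext v; rw [hFf, hFf, hom2]
    rw [h3] at h1
    exact tendsto_nhds_unique h1 h2
  obtain ⟨d, hd1, hd2⟩ := hqG _ _ hqq
  -- eventually the induced transformation is `d`
  have hdF : ∀ᶠ v in (𝒰 : Filter V), d (F (om v)) = F v := by
    obtain ⟨N, hNo, hNm, hinj⟩ := hq.isLocalHomeomorph.isLocallyInjective ys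
    have hN : N ∈ 𝓝 ys := hNo.mem_nhds hNm
    have h1 : Tendsto (fun v => d (F (om v))) 𝒰 (𝓝 ys) := by
      have := (d.continuous.tendsto (F w₀)).comp hFom
      rw [hd2] at this
      exact this
    filter_upwards [h1.eventually_mem hN, hys.eventually_mem hN] with v hv1 hv2
    refine hinj hv1 hv2 ?_
    rw [hd1, hFf, hFf, hom2]
  have hγd : ∀ᶠ v in (𝒰 : Filter V), ∀ u, F (γ v u) = d (F u) := by
    filter_upwards [hdF] with v hv
    obtain ⟨d', hd'1, hd'2⟩ := hbar (γ v) (hγ1 v)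
    have h1 : (d' : W → W) = d := by
      refine hq.eq_of_comp_eq d'.continuous d.continuous ?_ (F (om v)) ?_
      · funext y; simp [hd'1, hd1]
      · rw [hv, ← hd'2, hγ2]
    intro u
    rw [hd'2, h1]
  obtain ⟨v₁, hv₁⟩ := hγd.exists
  have hsymm : ∀ v u, p ((γ v).symm u) = p u := by
    intro v u
    have := hγ1 v ((γ v).symm u)
    rw [Homeomorph.apply_symm_apply] at this
    exact this.symm
  have hv₁' : ∀ u, F ((γ v₁).symm u) = d.symm (F u) := by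
    intro u
    have := hv₁ ((γ v₁).symm u)
    rw [Homeomorph.apply_symm_apply] at this
    rw [this, Homeomorph.symm_apply_apply]
  -- the deck transformations over `W`
  set κ : V → V ≃ₜ V := fun v => (γ v).trans (γ v₁).symm with hκ
  have hκv : ∀ v u, κ v u = (γ v₁).symm (γ v u) := fun v u => rfl
  have hκmem : ∀ᶠ v in (𝒰 : Filter V), κ v ∈ deckOver p F := by
    filter_upwards [hγd] with v hv
    refine ⟨fun u => ?_, fun u => ?_⟩
    · rw [hκv, hsymm, hγ1]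
    · rw [hκv, hv₁', hv, Homeomorph.symm_apply_apply]
  set K' : Set V := (γ v₁).symm '' K with hK'
  have hK'c : IsCompact K' := hK.image (γ v₁).symm.continuous
  have hξhull : ∀ᶠ v in (𝒰 : Filter V), κ v (om v) ∈ holomorphicHull E K' := by
    filter_upwards [hhull] with v hv
    rw [hκv, hγ2]
    exact hull_map (hphol _ (γ v₁).symm.continuous (hsymm v₁)) hv
  have hhol : ∀ g ∈ deckOver p F, ContMDiff 𝓘(ℂ, E) 𝓘(ℂ, E) ω g := fun g hg =>
    hphol _ g.continuous hg.1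
  -- the tame families at the limit point
  obtain ⟨n, N, g, ε, htame, hε, hfin⟩ := hsep w₀
  have hkey := fun k => key 𝒰 hw₀ hκmem hhol hK'c (hKne.image _) hξhull (htame k)
  have hdeck : ∀ᶠ a : V × V in (𝒰 : Filter V) ×ˢ (𝒰 : Filter V),
      (κ a.2).trans (κ a.1).symm ∈ deckOver p F := by
    filter_upwards [(tendsto_fst (f := (𝒰 : Filter V)) (g := (𝒰 : Filter V))).eventually hκmem,
      (tendsto_snd (f := (𝒰 : Filter V)) (g := (𝒰 : Filter V))).eventually hκmem] with a h1 h2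
    exact deck_trans h2 (deck_symm h1)
  set S : Set V := {u | p u = p w₀ ∧ F u = F w₀ ∧
        ∀ k, |N k u - N k w₀| < ε ∧ ∀ i, ‖g k i u - g k i w₀‖ < ε} with hS
  have hfinmem : ∀ᶠ a : V × V in (𝒰 : Filter V) ×ˢ (𝒰 : Filter V),
      (κ a.2).trans (κ a.1).symm w₀ ∈ S := by
    have h1 : ∀ᶠ a : V × V in (𝒰 : Filter V) ×ˢ (𝒰 : Filter V), ∀ k,
        |N k ((κ a.2).trans (κ a.1).symm w₀) - N k w₀| < ε ∧
        ∀ i, ‖g k i ((κ a.2).trans (κ a.1).symm w₀) - g k i w₀‖ < ε := by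
      rw [Filter.eventually_all]
      intro k
      filter_upwards [(Metric.tendsto_nhds.1 (hkey k).1) ε hε, (hkey k).2 (ε / 2) (half_pos hε)]
        with a h1 h2
      rw [Real.dist_eq] at h1
      exact ⟨h1, fun i => (h2 i).trans_lt (by linarith)⟩
    filter_upwards [hdeck, h1] with a h2 h3
    exact ⟨h2.1 _, h2.2 _, h3⟩
  obtain ⟨a₀, ha₀⟩ := hfinmem.curry.exists
  have hκfin : ∀ᶠ v in (𝒰 : Filter V), κ v w₀ ∈ κ a₀ '' S := by
    filter_upwards [ha₀] with v hv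
    refine ⟨_, hv, ?_⟩
    simp only [Homeomorph.trans_apply, Homeomorph.apply_symm_apply]
  obtain ⟨z, hz⟩ := ultra_finite 𝒰 (hfin.image _) hκfin
  obtain ⟨v₂, hv₂⟩ := hz.exists
  have hγeq : ∀ v, κ v w₀ = z → (γ v : V → V) = γ v₂ := by
    intro v hv
    refine hp.eq_of_comp_eq (γ v).continuous (γ v₂).continuous ?_ w₀ ?_
    · funext x; simp [hγ1]
    · have h1 : (γ v₁).symm (γ v w₀) = (γ v₁).symm (γ v₂ w₀) := by
        rw [← hκv, ← hκv, hv, hv₂]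
      exact (γ v₁).symm.injective h1
  refine ⟨γ v₂ '' F₀, hF₀.image (γ v₂).continuous, ?_⟩
  filter_upwards [hz] with v hv
  refine ⟨om v, hom1 v, ?_⟩
  rw [← hγeq v hv, hγ2]

end Vale.Agent.P300.Tame
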