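import Vale.Agent.P300.Bdl.B1

/-!
P300: locally bounded families of holomorphic functions are uniformly Cauchy on the holomorphic
hull of a compact set.
-/

open scoped Manifold ContDiff Topology
open Set Filter Metric

namespace Vale.Agent.P300.Tame

open Vale.Agent.P300

variable {E : Type*} [NormedAddCommGroup E] [NormedSpace ℂ E]
  {V : Type*} [TopologicalSpace V] [ChartedSpace E V] [IsManifold 𝓘(ℂ, E) ω V]
  {B : Type*} [NormedAddCommGroup B] [NormedSpace ℂ B]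

/-- A family of holomorphic maps which is bounded near `k` is equicontinuous at `k`. -/
theorem equicontinuous {k : V} {C : Set V} (hC : C ∈ 𝓝 k) {M η : ℝ} (hη : 0 < η) :
    ∃ U ∈ 𝓝 k, ∀ h : V → B, ContMDiff 𝓘(ℂ, E) 𝓘(ℂ, B) ω h → (∀ x ∈ C, ‖h x‖ ≤ M) →
      ∀ x ∈ U, ‖h x - h k‖ ≤ η := by
  set φ := extChartAt 𝓘(ℂ, E) k with hφ
  have h1 : ∀ᶠ u in 𝓝 (φ k), φ.symm u ∈ C ∧ u ∈ φ.target := by
    have h2 : Tendsto φ.symm (𝓝 (φ k)) (𝓝 k) := by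
      have := (continuousAt_extChartAt_symm (I := 𝓘(ℂ, E)) k).tendsto
      rwa [extChartAt_to_inv] at this
    exact (h2.eventually_mem hC).and (extChartAt_target_mem_nhds k)
  obtain ⟨r, hr, hball⟩ := Metric.mem_nhds_iff.1 h1
  by_cases hM : M < 0
  · refine ⟨univ, univ_mem, fun h _ hb => ?_⟩
    have := (norm_nonneg _).trans (hb k (mem_of_mem_nhds hC))
    linarith
  push Not at hM
  set s : ℝ := min r (η * r / (2 * M + 1)) with hs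
  have hs0 : 0 < s := lt_min hr (by positivity)
  refine ⟨φ ⁻¹' ball (φ k) s ∩ φ.source, inter_mem ?_ (extChartAt_source_mem_nhds k), ?_⟩
  · exact (continuousAt_extChartAt k).preimage_mem_nhds (ball_mem_nhds _ hs0)
  rintro h hh hb x ⟨hx, hxs⟩
  have hd : DifferentiableOn ℂ (fun u => h (φ.symm u)) (ball (φ k) r) := by
    intro u hu
    have hu2 := (hball hu).2
    have h3 : ContMDiffAt 𝓘(ℂ, E) 𝓘(ℂ, B) ω (fun u => h (φ.symm u)) u := by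
      have h4 : ContMDiffAt 𝓘(ℂ, E) 𝓘(ℂ, E) ω φ.symm u :=
        (contMDiffOn_extChartAt_symm k).contMDiffAt ((isOpen_extChartAt_target k).mem_nhds hu2)
      exact (hh _).comp u h4
    exact (contMDiffAt_iff_contDiffAt.1 h3).differentiableAt (by simp) |>.differentiableWithinAt
  have hmem : ∀ u ∈ ball (φ k) r, h (φ.symm u) ∈ closedBall (h (φ.symm (φ k))) (2 * M) := by
    intro u hu
    rw [mem_closedBall, dist_eq_norm]
    have h5 := hb _ (hball hu).1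
    have h6 := hb _ (hball (mem_ball_self hr)).1
    calc ‖h (φ.symm u) - h (φ.symm (φ k))‖ ≤ ‖h (φ.symm u)‖ + ‖h (φ.symm (φ k))‖ :=
          norm_sub_le _ _
      _ ≤ 2 * M := by linarith
  have hxr : φ x ∈ ball (φ k) r := ball_subset_ball (min_le_left _ _) hx
  have h7 := Complex.dist_le_div_mul_dist_of_mapsTo_ball hd hmem hxr
  rw [extChartAt_to_inv, φ.left_inv hxs, dist_eq_norm] at h7
  refine h7.trans ?_
  have h8 : dist (φ x) (φ k) ≤ η * r / (2 * M + 1) := (mem_ball.1 hx).le.trans (min_le_right _ _)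
  calc 2 * M / r * dist (φ x) (φ k) ≤ 2 * M / r * (η * r / (2 * M + 1)) := by gcongr
    _ = η * (2 * M / (2 * M + 1)) := by field_simp
    _ ≤ η * 1 := by
        gcongr
        rw [div_le_one (by positivity)]
        linarith
    _ = η := mul_one _

omit [IsManifold 𝓘(ℂ, E) ω V] in
theorem contMDiff_sub {f g : V → B} (hf : ContMDiff 𝓘(ℂ, E) 𝓘(ℂ, B) ω f)
    (hg : ContMDiff 𝓘(ℂ, E) 𝓘(ℂ, B) ω g) : ContMDiff 𝓘(ℂ, E) 𝓘(ℂ, B) ω fun x => f x - g x := by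
  have h1 : ContDiff ℂ ω fun q : B × B => q.1 - q.2 := contDiff_fst.sub contDiff_snd
  exact h1.contMDiff.comp (hf.prodMk_space hg)

omit [IsManifold 𝓘(ℂ, E) ω V] in
theorem contMDiff_smul {f : V → ℂ} {g : V → B} (hf : ContMDiff 𝓘(ℂ, E) 𝓘(ℂ) ω f)
    (hg : ContMDiff 𝓘(ℂ, E) 𝓘(ℂ, B) ω g) : ContMDiff 𝓘(ℂ, E) 𝓘(ℂ, B) ω fun x => f x • g x := by
  have h1 : ContDiff ℂ ω fun q : ℂ × B => q.1 • q.2 := contDiff_fst.smul contDiff_snd
  exact h1.contMDiff.comp (hf.prodMk_space hg)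

/-- A locally bounded family of holomorphic functions is uniformly Cauchy on the hull. -/
theorem uniform_scalar {α : Type*} (𝒰 : Ultrafilter α) {ξ : α → V} {K C : Set V}
    (hK : IsCompact K) (hKC : ∀ k ∈ K, C ∈ 𝓝 k)
    (hξ : ∀ᶠ a in (𝒰 : Filter α), ξ a ∈ holomorphicHull E K) (M : ℝ) {η : ℝ} (hη : 0 < η) :
    ∃ A ∈ (𝒰 : Filter α), ∀ a ∈ A, ∀ b ∈ A, ∀ h : V → ℂ, ContMDiff 𝓘(ℂ, E) 𝓘(ℂ) ω h →
      (∀ x ∈ C, ‖h x‖ ≤ M) → ‖h (ξ a) - h (ξ b)‖ ≤ η := by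
  classical
  set δ : ℝ := η / 8 with hδ
  have hδ0 : 0 < δ := by positivity
  have hex : ∀ k : V, ∃ U ∈ 𝓝 k, k ∈ K → ∀ h : V → ℂ, ContMDiff 𝓘(ℂ, E) 𝓘(ℂ) ω h →
      (∀ x ∈ C, ‖h x‖ ≤ M) → ∀ x ∈ U, ‖h x - h k‖ ≤ δ := by
    intro k
    by_cases hk : k ∈ K
    · obtain ⟨U, hU, hU2⟩ := equicontinuous (E := E) (B := ℂ) (M := M) (hKC k hk) hδ0
      exact ⟨U, hU, fun _ => hU2⟩
    · exact ⟨univ, univ_mem, fun h => absurd h hk⟩
  choose U hU1 hU2 using hex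
  obtain ⟨t, htK, ht⟩ := hK.elim_nhds_subcover U (fun k _ => hU1 k)
  -- the family
  let Fam : Set (V → ℂ) := {h | ContMDiff 𝓘(ℂ, E) 𝓘(ℂ) ω h ∧ ∀ x ∈ C, ‖h x‖ ≤ M}
  let ρ : (V → ℂ) → (t → ℂ) := fun h k => h k
  have hKC' : K ⊆ C := fun k hk => mem_of_mem_nhds (hKC k hk)
  have hSb : TotallyBounded (ρ '' Fam) := by
    refine (isCompact_closedBall (0 : t → ℂ) (max M 0)).totallyBounded.subset ?_
    rintro _ ⟨h, hh, rfl⟩
    rw [mem_closedBall, dist_zero_right, pi_norm_le_iff_of_nonneg (le_max_right _ _)]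
    intro k
    exact (hh.2 _ (hKC' (htK _ k.2))).trans (le_max_left _ _)
  obtain ⟨T, hTS, hTf, hT⟩ := Metric.finite_approx_of_totallyBounded hSb δ hδ0
  have hchoose : ∀ y : t → ℂ, ∃ h : V → ℂ, y ∈ T → h ∈ Fam ∧ ρ h = y := by
    intro y
    by_cases hy : y ∈ T
    · obtain ⟨h, hh, hh2⟩ := hTS hy
      exact ⟨h, fun _ => ⟨hh, hh2⟩⟩
    · exact ⟨0, fun h => absurd h hy⟩
  choose H hH using hchoose
  have happ : ∀ h ∈ Fam, ∃ y ∈ T, ∀ x ∈ holomorphicHull E K, ‖h x - H y x‖ ≤ 3 * δ := by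
    intro h hh
    have h1 := hT ⟨h, hh, rfl⟩
    simp only [mem_iUnion, mem_ball] at h1
    obtain ⟨y, hyT, hy⟩ := h1
    refine ⟨y, hyT, fun x hx => ?_⟩
    obtain ⟨⟨hH1, hH2⟩, hH3⟩ := hH y hyT
    have h2 : ContMDiff 𝓘(ℂ, E) 𝓘(ℂ) ω (fun x => h x - H y x) := contMDiff_sub hh.1 hH1
    refine hx _ h2 (3 * δ) fun z hz => ?_
    have hz2 := ht hz
    simp only [mem_iUnion] at hz2
    obtain ⟨k, hk, hzk⟩ := hz2
    have e1 := hU2 k (htK k hk) h hh.1 hh.2 z hzk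
    have e2 := hU2 k (htK k hk) (H y) hH1 hH2 z hzk
    have e3 : ‖h k - H y k‖ ≤ δ := by
      have h3 := (dist_le_pi_dist (ρ h) y ⟨k, hk⟩).trans hy.le
      rw [← hH3, dist_eq_norm] at h3
      exact h3
    calc ‖h z - H y z‖ = ‖(h z - h k) + (h k - H y k) - (H y z - H y k)‖ := by
          congr 1; ring
      _ ≤ ‖(h z - h k) + (h k - H y k)‖ + ‖H y z - H y k‖ := norm_sub_le _ _
      _ ≤ (‖h z - h k‖ + ‖h k - H y k‖) + ‖H y z - H y k‖ := by gcongr; exact norm_add_le _ _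
      _ ≤ 3 * δ := by linarith
  have hlim : ∀ y ∈ T, ∃ l : ℂ, ∀ᶠ a in (𝒰 : Filter α), ‖H y (ξ a) - l‖ ≤ δ := by
    intro y hy
    obtain ⟨⟨hH1, hH2⟩, hH3⟩ := hH y hy
    obtain ⟨l, -, hl⟩ := ultra_tendsto 𝒰 (g := fun a => H y (ξ a))
      (isCompact_closedBall (0 : ℂ) M) (hξ.mono fun a ha => by
        rw [mem_closedBall, dist_zero_right]
        exact ha _ hH1 M fun z hz => hH2 z (hKC' hz))
    refine ⟨l, ?_⟩
    filter_upwards [hl (closedBall_mem_nhds l hδ0)] with a ha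
    rwa [mem_preimage, mem_closedBall, dist_eq_norm] at ha
  have hlim2 : ∀ y : t → ℂ, ∃ l : ℂ, y ∈ T → ∀ᶠ a in (𝒰 : Filter α), ‖H y (ξ a) - l‖ ≤ δ := by
    intro y
    by_cases hy : y ∈ T
    · obtain ⟨l, hl⟩ := hlim y hy
      exact ⟨l, fun _ => hl⟩
    · exact ⟨0, fun h => absurd h hy⟩
  choose l hl using hlim2
  have hall : ∀ᶠ a in (𝒰 : Filter α), ∀ y ∈ T, ‖H y (ξ a) - l y‖ ≤ δ :=
    (Filter.eventually_all_finite hTf).2 fun y hy => hl y hy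
  refine ⟨{a | ξ a ∈ holomorphicHull E K ∧ ∀ y ∈ T, ‖H y (ξ a) - l y‖ ≤ δ}, hξ.and hall, ?_⟩
  rintro a ⟨ha1, ha2⟩ b ⟨hb1, hb2⟩ h hh1 hh2
  obtain ⟨y, hy, hy2⟩ := happ h ⟨hh1, hh2⟩
  have e1 := hy2 _ ha1
  have e2 := hy2 _ hb1
  have e3 := ha2 y hy
  have e4 := hb2 y hy
  calc ‖h (ξ a) - h (ξ b)‖ = ‖((h (ξ a) - H y (ξ a)) + (H y (ξ a) - l y)) -
        ((H y (ξ b) - l y) + (h (ξ b) - H y (ξ b)))‖ := by congr 1; ring
    _ ≤ ‖(h (ξ a) - H y (ξ a)) + (H y (ξ a) - l y)‖ +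
        ‖(H y (ξ b) - l y) + (h (ξ b) - H y (ξ b))‖ := norm_sub_le _ _
    _ ≤ (‖h (ξ a) - H y (ξ a)‖ + ‖H y (ξ a) - l y‖) +
        (‖H y (ξ b) - l y‖ + ‖h (ξ b) - H y (ξ b)‖) := by
        gcongr
        · exact norm_add_le _ _
        · exact norm_add_le _ _
    _ ≤ η := by rw [hδ] at e1 e2 e3 e4; linarith

/-- The same for maps to a normed space. -/
theorem uniform_vector {α : Type*} (𝒰 : Ultrafilter α) {ξ : α → V} {K C : Set V}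
    (hK : IsCompact K) (hKC : ∀ k ∈ K, C ∈ 𝓝 k)
    (hξ : ∀ᶠ a in (𝒰 : Filter α), ξ a ∈ holomorphicHull E K) (M : ℝ) {η : ℝ} (hη : 0 < η) :
    ∃ A ∈ (𝒰 : Filter α), ∀ a ∈ A, ∀ b ∈ A, ∀ h : V → B, ContMDiff 𝓘(ℂ, E) 𝓘(ℂ, B) ω h →
      (∀ x ∈ C, ‖h x‖ ≤ M) → ‖h (ξ a) - h (ξ b)‖ ≤ η := by
  obtain ⟨A, hA, hA2⟩ := uniform_scalar 𝒰 hK hKC hξ M hη
  refine ⟨A, hA, fun a ha b hb h hh hhC => ?_⟩
  by_cases h0 : h (ξ a) - h (ξ b) = 0
  · rw [h0, norm_zero]; exact hη.le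
  obtain ⟨ℓ, hℓ1, hℓ2⟩ := exists_dual_vector ℂ (h (ξ a) - h (ξ b)) (by simpa using h0)
  have h1 : ContMDiff 𝓘(ℂ, E) 𝓘(ℂ) ω (fun x => ℓ (h x)) := ℓ.contMDiff.comp hh
  have h2 := hA2 a ha b hb _ h1 fun x hx => by
    calc ‖ℓ (h x)‖ ≤ ‖ℓ‖ * ‖h x‖ := ℓ.le_opNorm _
      _ = ‖h x‖ := by rw [hℓ1, one_mul]
      _ ≤ M := hhC x hx
  rw [← map_sub, hℓ2] at h2
  simpa only [ge_iff_le, Complex.coe_algebraMap, Complex.norm_real, norm_norm] using h2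

end Vale.Agent.P300.Tame
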